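import Mathlib

/-!
# P137 (helper41): the centered Hardy-Littlewood maximal function on radially nonincreasing
functions -- definitions
-/

namespace Vale.Agent.Lib.P137

open MeasureTheory Metric
open scoped ENNReal

/-- Euclidean space of dimension `d`. -/
abbrev E (d : ℕ) : Type := EuclideanSpace ℝ (Fin d)

/-- The centered Hardy-Littlewood maximal function of a nonnegative function `f` on `R^d`:
the supremum over `r > 0` of the average of `f` over the open ball `B(x, r)`. -/
noncomputable def cmax {d : ℕ} (f : E d → ℝ≥0∞) (x : E d) : ℝ≥0∞ :=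
  ⨆ r : ℝ, ⨆ _ : 0 < r, (∫⁻ y in ball x r, f y) / volume (ball x r)

/-- The average of the radial function `z ↦ F ‖z‖` over the centered ball of radius `s`. -/
noncomputable def cavg (d : ℕ) (F : ℝ → ℝ≥0∞) (s : ℝ) : ℝ≥0∞ :=
  (∫⁻ z in ball (0 : E d) s, F ‖z‖) / volume (ball (0 : E d) s)

end Vale.Agent.Lib.P137
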