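import Mathlib
import Vale.Agent.Lib.P137.helper41.Defs
import Vale.Agent.Lib.P137.helper72.BallAnti
import Vale.Agent.Lib.P137.helper14.Scale
import Vale.Agent.Lib.P137.helper11.CavgAnti
import Vale.Agent.Lib.P137.helper16.CmaxLe
import Vale.Agent.Lib.P137.helper38.Shells
import Vale.Agent.Lib.P137.helper70.Hardy

/-!
# P137 (helper41): the centered maximal function of a radially nonincreasing function

Assembly of the pool leaves: radial monotonicity of `cmax` and the weighted bound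
`∫ Mf / |x| ≤ 4^(d+1) ∫ f / |x|`.
-/

namespace Vale.Agent.Lib.P137.H41

open Vale.Agent.Lib.P137 MeasureTheory Metric
open scoped ENNReal

/-- Radial monotonicity of the maximal function of a radially nonincreasing function. -/
theorem cmax_anti {d : ℕ} (F : ℝ → ℝ≥0∞) (hF : Antitone F) (x y : E d) (hxy : ‖x‖ ≤ ‖y‖) :
    cmax (fun z : E d => F ‖z‖) y ≤ cmax (fun z : E d => F ‖z‖) x := by
  unfold cmax
  refine iSup₂_mono fun r _ => ?_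
  have hvol : volume (ball y r) = volume (ball x r) := by
    rw [Measure.addHaar_ball_center, Measure.addHaar_ball_center volume x r]
  rw [hvol]
  exact ENNReal.div_le_div_right (H72.setLIntegral_ball_anti F hF x y hxy r) _

theorem cmax_le {d : ℕ} (hd : 1 ≤ d) (F : ℝ → ℝ≥0∞) (hF : Antitone F) (x : E d) (hx : x ≠ 0) :
    cmax (fun z : E d => F ‖z‖) x ≤ F (1 / 2 * ‖x‖) + 3 ^ d * cavg d F (3 / 2 * ‖x‖) :=
  H16.cmax_le_of hd F hF (fun _ _ hs hst => H11.cavg_anti hd F hF hs hst) x hx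

theorem hardy {d : ℕ} (hd : 1 ≤ d) (F : ℝ → ℝ≥0∞) (hF : Antitone F) :
    ∫⁻ x : E d, cavg d F ‖x‖ / ENNReal.ofReal ‖x‖ ≤
      2 ^ (d + 1) * ∫⁻ z : E d, F ‖z‖ / ENNReal.ofReal ‖z‖ :=
  H70.hardy_of hd F hF (fun _ ha => H38.lintegral_norm_gt_le hd ha)

theorem num_bound (d : ℕ) :
    ENNReal.ofReal (1 / 2 * ((1 / 2 : ℝ) ^ d)⁻¹) +
      ENNReal.ofReal (3 / 2 * ((3 / 2 : ℝ) ^ d)⁻¹) * (3 ^ d * 2 ^ (d + 1)) ≤
        (4 : ℝ≥0∞) ^ (d + 1) := by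
  have h3 : (3 : ℝ≥0∞) ^ d = ENNReal.ofReal ((3 : ℝ) ^ d) := by
    rw [ENNReal.ofReal_pow (by norm_num)]; norm_num
  have h2 : (2 : ℝ≥0∞) ^ (d + 1) = ENNReal.ofReal ((2 : ℝ) ^ (d + 1)) := by
    rw [ENNReal.ofReal_pow (by norm_num)]; norm_num
  have h4 : (4 : ℝ≥0∞) ^ (d + 1) = ENNReal.ofReal ((4 : ℝ) ^ (d + 1)) := by
    rw [ENNReal.ofReal_pow (by norm_num)]; norm_num
  rw [h3, h2, h4, ← ENNReal.ofReal_mul (by positivity), ← ENNReal.ofReal_mul (by positivity),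
    ← ENNReal.ofReal_add (by positivity) (by positivity)]
  apply ENNReal.ofReal_le_ofReal
  have e1 : (1 / 2 : ℝ) * ((1 / 2 : ℝ) ^ d)⁻¹ = 2 ^ d / 2 := by
    rw [one_div, inv_pow, inv_inv]; ring
  have e2 : (3 / 2 : ℝ) * ((3 / 2 : ℝ) ^ d)⁻¹ * (3 ^ d * 2 ^ (d + 1)) = 3 * 4 ^ d := by
    have h4' : (4 : ℝ) ^ d = 2 ^ d * 2 ^ d := by rw [← mul_pow]; norm_num
    rw [div_pow, h4']
    field_simp
    ring
  rw [e1, e2]
  have h24 : (2 : ℝ) ^ d ≤ 4 ^ d := pow_le_pow_left₀ (by norm_num) (by norm_num) d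
  have h40 : (0 : ℝ) < 4 ^ d := by positivity
  rw [pow_succ]
  nlinarith

/-- The weighted bound `∫ Mf / |x| ≤ 4^(d+1) ∫ f / |x|` for radially nonincreasing `f`. -/
theorem weighted_bound {d : ℕ} (hd : 1 ≤ d) (F : ℝ → ℝ≥0∞) (hF : Antitone F) :
    ∫⁻ x : E d, cmax (fun z : E d => F ‖z‖) x / ENNReal.ofReal ‖x‖ ≤
      4 ^ (d + 1) * ∫⁻ x : E d, F ‖x‖ / ENNReal.ofReal ‖x‖ := by
  have : Nonempty (Fin d) := ⟨⟨0, hd⟩⟩
  have hne : ∀ᵐ x : E d, x ≠ 0 := by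
    have h0 : volume ({0} : Set (E d)) = 0 := measure_singleton 0
    rw [ae_iff]
    simp
  have hm1 : Measurable fun x : E d => F (1 / 2 * ‖x‖) / ENNReal.ofReal ‖x‖ :=
    (hF.measurable.comp (measurable_const.mul measurable_norm)).div
      measurable_norm.ennreal_ofReal
  set I := ∫⁻ x : E d, F ‖x‖ / ENNReal.ofReal ‖x‖ with hI
  have step1 : ∫⁻ x : E d, cmax (fun z : E d => F ‖z‖) x / ENNReal.ofReal ‖x‖ ≤
      ∫⁻ x : E d, (F (1 / 2 * ‖x‖) / ENNReal.ofReal ‖x‖ +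
        (3 ^ d * cavg d F (3 / 2 * ‖x‖)) / ENNReal.ofReal ‖x‖) := by
    refine lintegral_mono_ae (hne.mono fun x hx => ?_)
    rw [← ENNReal.add_div]
    exact ENNReal.div_le_div_right (cmax_le hd F hF x hx) _
  have step2 : ∫⁻ x : E d, F (1 / 2 * ‖x‖) / ENNReal.ofReal ‖x‖ =
      ENNReal.ofReal (1 / 2 * ((1 / 2 : ℝ) ^ d)⁻¹) * I :=
    H14.lintegral_scale_div_norm F (by norm_num)
  have step3 : ∫⁻ x : E d, (3 ^ d * cavg d F (3 / 2 * ‖x‖)) / ENNReal.ofReal ‖x‖ ≤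
      ENNReal.ofReal (3 / 2 * ((3 / 2 : ℝ) ^ d)⁻¹) * (3 ^ d * 2 ^ (d + 1)) * I := by
    have h := H14.lintegral_scale_div_norm (d := d) (fun s => 3 ^ d * cavg d F s)
      (c := 3 / 2) (by norm_num)
    rw [h, mul_assoc]
    refine mul_le_mul_right ?_ _
    have h' : ∫⁻ y : E d, (3 ^ d * cavg d F ‖y‖) / ENNReal.ofReal ‖y‖ =
        3 ^ d * ∫⁻ y : E d, cavg d F ‖y‖ / ENNReal.ofReal ‖y‖ := by
      rw [← lintegral_const_mul' _ _ (by simp)]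
      refine lintegral_congr fun y => ?_
      rw [mul_div_assoc]
    rw [h', mul_assoc]
    exact mul_le_mul_right (hardy hd F hF) _
  calc ∫⁻ x : E d, cmax (fun z : E d => F ‖z‖) x / ENNReal.ofReal ‖x‖
      ≤ ∫⁻ x : E d, (F (1 / 2 * ‖x‖) / ENNReal.ofReal ‖x‖ +
        (3 ^ d * cavg d F (3 / 2 * ‖x‖)) / ENNReal.ofReal ‖x‖) := step1
    _ = (∫⁻ x : E d, F (1 / 2 * ‖x‖) / ENNReal.ofReal ‖x‖) +
        ∫⁻ x : E d, (3 ^ d * cavg d F (3 / 2 * ‖x‖)) / ENNReal.ofReal ‖x‖ :=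
      lintegral_add_left hm1 _
    _ ≤ ENNReal.ofReal (1 / 2 * ((1 / 2 : ℝ) ^ d)⁻¹) * I +
        ENNReal.ofReal (3 / 2 * ((3 / 2 : ℝ) ^ d)⁻¹) * (3 ^ d * 2 ^ (d + 1)) * I := by
      rw [step2]
      exact add_le_add le_rfl step3
    _ = (ENNReal.ofReal (1 / 2 * ((1 / 2 : ℝ) ^ d)⁻¹) +
        ENNReal.ofReal (3 / 2 * ((3 / 2 : ℝ) ^ d)⁻¹) * (3 ^ d * 2 ^ (d + 1))) * I := by
      rw [add_mul]
    _ ≤ 4 ^ (d + 1) * I := mul_le_mul_left (num_bound d) _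

end Vale.Agent.Lib.P137.H41
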